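import Vale.Agent.P239.H260.Main

set_option linter.all false

/-!
From locally finite homogeneous cochains to the coarse statements of the group theorem.
-/

section

namespace Vale.Agent.P239.M.H260

open Vale.Agent.P239 Vale.Agent.P239.M Vale.Agent.P239.M.Out
open Vale.Agent.P239.TF (On mem_On single_mem_On map_mem_of map_eq_of)

/-- `H¹(Γ; 𝔽₂Γ) = 0`, in homogeneous locally finite cochains. -/
def HOne (Γ : Type*) [Group Γ] : Prop :=
  ∀ B : Γ → Γ → ZMod 2, (∀ u, {x | B x (x * u) ≠ 0}.Finite) →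
    (∀ x y z, B y z + B x z + B x y = 0) →
    ∃ C : Γ → ZMod 2, {x | C x ≠ 0}.Finite ∧ ∀ x y, B x y = C y + C x

/-- `H²(Γ; 𝔽₂Γ) = 0`, in homogeneous locally finite cochains. -/
def HTwo (Γ : Type*) [Group Γ] : Prop :=
  ∀ B : Γ → Γ → Γ → ZMod 2, (∀ u v, {x | B x (x * u) (x * v) ≠ 0}.Finite) →
    (∀ x y z w, B y z w + B x z w + B x y w + B x y z = 0) →
    ∃ C : Γ → Γ → ZMod 2, (∀ u, {x | C x (x * u) ≠ 0}.Finite) ∧
      ∀ x y z, B x y z = C y z + C x z + C x y

variable {Γ : Type*} [Group Γ]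

/-- translation of chains -/
noncomputable def tr (x : Γ) : Ch (ZMod 2) Γ →ₗ[ZMod 2] Ch (ZMod 2) Γ := pf (fun y => x * y)

theorem tr_single (x : Γ) (l : List Γ) (r : ZMod 2) :
    tr x (Finsupp.single l r) = Finsupp.single (l.map (fun y => x * y)) r := pf_single _ _ _

theorem bd_tr (x : Γ) (c : Ch (ZMod 2) Γ) : bd (tr x c) = tr x (bd c) := bd_pf _ _

theorem tr_tr (x y : Γ) (c : Ch (ZMod 2) Γ) : tr x (tr y c) = tr (x * y) c := by
  induction c using Finsupp.induction_linear with
  | zero => simp only [map_zero]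
  | add a b ha hb => simp only [map_add, ha, hb]
  | single l r =>
    rw [tr_single, tr_single, tr_single, List.map_map]
    congr 2
    funext z
    simp [mul_assoc]

theorem tr_one (c : Ch (ZMod 2) Γ) : tr (1 : Γ) c = c := by
  induction c using Finsupp.induction_linear with
  | zero => simp only [map_zero]
  | add a b ha hb => simp only [map_add, ha, hb]
  | single l r => rw [tr_single]; simp

theorem sup_tr {n : ℕ} {R : Finset Γ} {c : Ch (ZMod 2) Γ} (x : Γ)
    (h : Sup (fun l => l.length = n ∧ SmG R l) c) :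
    Sup (fun l => l.length = n ∧ SmG R l) (tr x c) := by
  rw [sup_iff] at h ⊢
  refine map_mem_of h (tr x) _ fun t ht => ?_
  rw [tr_single]
  refine single_mem_On ⟨by rw [List.length_map]; exact ht.1, ?_⟩ 1
  intro a ha b hb
  obtain ⟨a', ha', rfl⟩ := List.mem_map.1 ha
  obtain ⟨b', hb', rfl⟩ := List.mem_map.1 hb
  have : (x * a')⁻¹ * (x * b') = a'⁻¹ * b' := by group
  rw [this]
  exact ht.2 a' ha' b' hb'

theorem lift3_tr_finite (b : Γ → Γ → Γ → ZMod 2)
    (hb : {p : Γ × Γ × Γ | b p.1 p.2.1 p.2.2 ≠ 0}.Finite) (c : Ch (ZMod 2) Γ) :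
    {x : Γ | ext (lift3 b) (tr x c) ≠ 0}.Finite := by
  classical
  induction c using Finsupp.induction_linear with
  | zero => simp
  | add a b' ha hb' =>
    refine (ha.union hb').subset ?_
    intro x hx
    simp only [Set.mem_ofPred_eq, Set.mem_union] at hx ⊢
    by_contra hcon
    push Not at hcon
    rw [map_add, map_add, hcon.1, hcon.2, add_zero] at hx
    exact hx rfl
  | single l r =>
    match l with
    | [] => refine Set.finite_empty.subset ?_; intro x hx; simp [tr_single, lift3] at hx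
    | [a] => refine Set.finite_empty.subset ?_; intro x hx; simp [tr_single, lift3] at hx
    | [a, a'] => refine Set.finite_empty.subset ?_; intro x hx; simp [tr_single, lift3] at hx
    | [a, a', a''] =>
      refine (hb.image (fun p => p.1 * a⁻¹)).subset ?_
      intro x hx
      refine ⟨(x * a, x * a', x * a''), ?_, by simp⟩
      simp only [Set.mem_ofPred_eq] at hx ⊢
      intro h0
      apply hx
      rw [tr_single]
      simp only [List.map_cons, List.map_nil, Finsupp.linearCombination_single, lift3, h0, smul_zero]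
    | _ :: _ :: _ :: _ :: _ =>
      refine Set.finite_empty.subset ?_; intro x hx; simp [tr_single, lift3] at hx

/-- `H²(Γ; 𝔽₂Γ) = 0` and coarse acyclicity give the coarse form of the vanishing. -/
theorem h2Fill_of_HTwo (h2 : HTwo Γ) (hf1 : CFillS (ZMod 2) Γ 1) (hf2 : CFillS (ZMod 2) Γ 2)
    (hf3 : CFillS (ZMod 2) Γ 3) (S : Finset Γ) :
    ∃ T₀ : Finset Γ, ∀ T : Finset Γ, T₀ ⊆ T → F.H2Fill S T := by
  classical
  let S' : Finset Γ := insert 1 (S ∪ S.image fun g => g⁻¹)
  have h1S' : (1 : Γ) ∈ S' := by simp [S']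
  have hSS' : S ⊆ S' := fun g hg => by simp [S', hg]
  have hinv : ∀ g ∈ S', g⁻¹ ∈ S' := by
    intro g hg
    simp only [S', Finset.mem_insert, Finset.mem_union, Finset.mem_image] at hg ⊢
    rcases hg with rfl | hg | ⟨a, ha, rfl⟩
    · left; simp
    · right; right; exact ⟨g, hg, rfl⟩
    · right; left; simpa using ha
  obtain ⟨R₁, hSR₁, hR₁⟩ := hf1 S'
  obtain ⟨R₂, hRR₂, hR₂⟩ := hf2 R₁
  obtain ⟨T₀, hRT, hT₀⟩ := hf3 R₂
  have h1R₁ : (1 : Γ) ∈ R₁ := hSR₁ h1S'
  -- paths
  have hP : ∀ w : Γ, ∃ c : Ch (ZMod 2) Γ, bd c = Finsupp.single [w] 1 - Finsupp.single [1] 1 ∧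
      Sup (fun l => l.length = 2 ∧ SmG R₁ l) c ∧ (w ∈ S' → c = Finsupp.single [1, w] 1) := by
    intro w
    by_cases hw : w ∈ S'
    · refine ⟨Finsupp.single [1, w] 1, by rw [bd_single, one_smul, bdL_two], ?_, fun _ => rfl⟩
      rw [sup_iff]
      refine single_mem_On ⟨rfl, ?_⟩ 1
      intro a ha b hb
      simp only [List.mem_cons, List.not_mem_nil, or_false] at ha hb
      rcases ha with rfl | rfl <;> rcases hb with rfl | rfl
      · simpa using h1R₁
      · simpa using hSR₁ hw
      · simpa using hSR₁ (hinv _ hw)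
      · simpa using h1R₁
    · obtain ⟨c, hc, hcs⟩ := hR₁ (Finsupp.single [w] 1 - Finsupp.single [1] 1)
        (by rw [map_sub, bd_single, bd_single, bdL_one, bdL_one, sub_self]) (by
          rw [sup_iff]
          refine Submodule.sub_mem _ (single_mem_On ⟨rfl, ?_⟩ 1) (single_mem_On ⟨rfl, ?_⟩ 1)
          · intro a ha b hb
            simp only [List.mem_cons, List.not_mem_nil, or_false] at ha hb
            subst ha; subst hb; simpa using h1S'
          · intro a ha b hb
            simp only [List.mem_cons, List.not_mem_nil, or_false] at ha hb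
            subst ha; subst hb; simpa using h1S')
      exact ⟨c, hc, hcs, fun h => absurd h hw⟩
  choose P hPbd hPs hPS using hP
  let ψ2 : Γ → Γ → Ch (ZMod 2) Γ := fun x y => tr x (P (x⁻¹ * y))
  have hψ2bd : ∀ x y, bd (ψ2 x y) = Finsupp.single [y] 1 - Finsupp.single [x] 1 := by
    intro x y
    simp only [ψ2]
    rw [bd_tr, hPbd, map_sub, tr_single, tr_single]
    simp
  have hψ2tr : ∀ g x y, tr g (ψ2 x y) = ψ2 (g * x) (g * y) := by
    intro g x y
    simp only [ψ2]
    rw [tr_tr]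
    congr 2
    group
  have hψ2S : ∀ x y, x⁻¹ * y ∈ S' → ψ2 x y = Finsupp.single [x, y] 1 := by
    intro x y h
    simp only [ψ2]
    rw [hPS _ h, tr_single]
    simp
  have hψ2s : ∀ x y, Sup (fun l => l.length = 2 ∧ SmG R₁ l) (ψ2 x y) := fun x y => sup_tr x (hPs _)
  -- triangles
  have hQ : ∀ u v : Γ, ∃ c : Ch (ZMod 2) Γ, bd c = ψ2 u v - (ψ2 1 v - ψ2 1 u) ∧
      Sup (fun l => l.length = 3 ∧ SmG R₂ l) c ∧
      (u ∈ S' → v ∈ S' → u⁻¹ * v ∈ S' → c = Finsupp.single [1, u, v] 1) := by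
    intro u v
    by_cases huv : u ∈ S' ∧ v ∈ S' ∧ u⁻¹ * v ∈ S'
    · obtain ⟨hu, hv, huv⟩ := huv
      refine ⟨Finsupp.single [1, u, v] 1, ?_, ?_, fun _ _ _ => rfl⟩
      · rw [bd_single, one_smul, bdL_three, hψ2S u v huv, hψ2S 1 v (by simpa using hv),
          hψ2S 1 u (by simpa using hu)]
      · rw [sup_iff]
        refine single_mem_On ⟨rfl, ?_⟩ 1
        have hvu : v⁻¹ * u ∈ S' := by
          have := hinv _ huv
          rwa [mul_inv_rev, inv_inv] at this
        have hs : ∀ g ∈ S', g ∈ R₂ := fun g hg => hRR₂ (hSR₁ hg)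
        intro a ha b hb
        simp only [List.mem_cons, List.not_mem_nil, or_false] at ha hb
        rcases ha with rfl | rfl | rfl <;> rcases hb with rfl | rfl | rfl
        · simpa using hs _ h1S'
        · simpa using hs _ hu
        · simpa using hs _ hv
        · simpa using hs _ (hinv _ hu)
        · simpa using hs _ h1S'
        · exact hs _ huv
        · simpa using hs _ (hinv _ hv)
        · exact hs _ hvu
        · simpa using hs _ h1S'
    · obtain ⟨c, hc, hcs⟩ := hR₂ (ψ2 u v - (ψ2 1 v - ψ2 1 u))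
        (by rw [map_sub, map_sub, hψ2bd, hψ2bd, hψ2bd]; abel) (by
          rw [sup_iff]
          exact Submodule.sub_mem _ (sup_iff.1 (hψ2s _ _))
            (Submodule.sub_mem _ (sup_iff.1 (hψ2s _ _)) (sup_iff.1 (hψ2s _ _))))
      exact ⟨c, hc, hcs, fun h1 h2 h3 => absurd ⟨h1, h2, h3⟩ huv⟩
  choose Q hQbd hQs hQS using hQ
  let ψ3 : Γ → Γ → Γ → Ch (ZMod 2) Γ := fun x y z => tr x (Q (x⁻¹ * y) (x⁻¹ * z))
  have hψ3bd : ∀ x y z, bd (ψ3 x y z) = ψ2 y z - (ψ2 x z - ψ2 x y) := by
    intro x y z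
    simp only [ψ3]
    rw [bd_tr, hQbd, map_sub, map_sub, hψ2tr, hψ2tr, hψ2tr]
    simp
  have hψ3s : ∀ x y z, Sup (fun l => l.length = 3 ∧ SmG R₂ l) (ψ3 x y z) :=
    fun x y z => sup_tr x (hQs _ _)
  refine ⟨T₀, fun T hT b hb hcoc => ?_⟩
  let B : Ch (ZMod 2) Γ →ₗ[ZMod 2] ZMod 2 := ext (lift3 b)
  -- `B` vanishes on small cycles
  have hB0 : ∀ z : Ch (ZMod 2) Γ, bd z = 0 → Sup (fun l => l.length = 3 ∧ SmG R₂ l) z →
      B z = 0 := by
    intro z hz hzs
    obtain ⟨w, hw, hws⟩ := hT₀ z hz hzs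
    rw [← hw]
    rw [sup_iff] at hws
    refine map_eq_of hws (B ∘ₗ bd) 0 fun t ht => ?_
    obtain ⟨hlen, hsm⟩ := ht
    rw [LinearMap.comp_apply, bd_single, one_smul, LinearMap.zero_apply]
    match t, hlen with
    | [x, y, z, w], _ =>
      rw [bdL_four]
      simp only [B, map_sub, Finsupp.linearCombination_single, one_smul, lift3]
      have h := hcoc x y z w (hT (hsm x (by simp) y (by simp))) (hT (hsm x (by simp) z (by simp)))
        (hT (hsm x (by simp) w (by simp))) (hT (hsm y (by simp) z (by simp)))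
        (hT (hsm y (by simp) w (by simp))) (hT (hsm z (by simp) w (by simp)))
      simp only [sub_eq_add_neg, CharTwo.neg_eq]
      rw [← h]; ring
  obtain ⟨C, hC, hCB⟩ := h2 (fun x y z => B (ψ3 x y z)) (by
      intro u v
      refine (lift3_tr_finite b hb (Q u v)).subset ?_
      intro x hx
      simp only [Set.mem_ofPred_eq, ψ3, inv_mul_cancel_left] at hx ⊢
      exact hx) (by
      intro x y z w
      have h := hB0 (ψ3 y z w - (ψ3 x z w - (ψ3 x y w - ψ3 x y z))) (by
        simp only [map_sub, hψ3bd]; abel) (by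
        rw [sup_iff]
        exact Submodule.sub_mem _ (sup_iff.1 (hψ3s _ _ _)) (Submodule.sub_mem _
          (sup_iff.1 (hψ3s _ _ _)) (Submodule.sub_mem _ (sup_iff.1 (hψ3s _ _ _))
            (sup_iff.1 (hψ3s _ _ _)))))
      rw [map_sub, map_sub, map_sub, CharTwo.sub_eq_add, CharTwo.sub_eq_add,
        CharTwo.sub_eq_add] at h
      change B (ψ3 y z w) + B (ψ3 x z w) + B (ψ3 x y w) + B (ψ3 x y z) = 0
      rw [← h]; abel)
  refine ⟨fun x y => if x⁻¹ * y ∈ S' then C x y else 0, ?_, ?_⟩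
  · refine ((S'.finite_toSet.biUnion fun u _ => (hC u).image fun x => (x, x * u))).subset ?_
    rintro ⟨x, y⟩ hxy
    simp only [Set.mem_ofPred_eq] at hxy
    by_cases h : x⁻¹ * y ∈ S'
    · rw [if_pos h] at hxy
      simp only [Set.mem_iUnion]
      refine ⟨x⁻¹ * y, Finset.mem_coe.2 h, x, ?_, ?_⟩
      · simpa using hxy
      · simp
    · rw [if_neg h] at hxy
      exact absurd rfl hxy
  · intro x y z hxy hyz hxz
    have h3 : ψ3 x y z = Finsupp.single [x, y, z] 1 := by
      simp only [ψ3]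
      rw [hQS _ _ (hSS' hxy) (hSS' hxz) (by
        have : (x⁻¹ * y)⁻¹ * (x⁻¹ * z) = y⁻¹ * z := by group
        rw [this]; exact hSS' hyz), tr_single]
      simp
    have h4 : B (ψ3 x y z) = b x y z := by
      rw [h3]
      simp only [B, Finsupp.linearCombination_single, one_smul, lift3]
    have h5 := hCB x y z
    simp only [h4] at h5
    simp only [h5, if_pos (hSS' hxy), if_pos (hSS' hyz), if_pos (hSS' hxz)]
    ring

/-- `H¹(Γ; 𝔽₂Γ) = 0` gives one-endedness. -/
theorem oneEnded_of_HOne (h1 : HOne Γ) (S : Finset Γ)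
    (hS : Subgroup.closure (S : Set Γ) = ⊤) (hsym : ∀ s ∈ S, s⁻¹ ∈ S) : F.OneEnded S := by
  classical
  intro A hA
  have hfin : ∀ w : Γ, {x : Γ | ¬ (x ∈ A ↔ x * w ∈ A)}.Finite := by
    intro w
    have hw : w ∈ Subgroup.closure (S : Set Γ) := by rw [hS]; trivial
    induction hw using Subgroup.closure_induction_right with
    | one => simp
    | mul_right x _ s hs ih =>
      have h2 : {y : Γ | ¬ (y ∈ A ↔ y * s ∈ A)}.Finite := by
        exact hA.subset fun y hy => ⟨y * s, ⟨s, hs, Or.inl rfl⟩, hy⟩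
      refine (ih.union (h2.preimage (mul_left_injective x).injOn)).subset ?_
      intro y hy
      simp only [Set.mem_ofPred_eq, Set.mem_union, Set.mem_preimage] at hy ⊢
      by_contra hcon
      push Not at hcon
      exact hy (hcon.1.trans (by rw [← mul_assoc]; exact hcon.2))
    | mul_inv_cancel x _ s hs ih =>
      have h2 : {y : Γ | ¬ (y ∈ A ↔ y * s⁻¹ ∈ A)}.Finite := by
        exact hA.subset fun y hy => ⟨y * s⁻¹, ⟨s, hs, Or.inr (by simp)⟩, hy⟩
      refine (ih.union (h2.preimage (mul_left_injective x).injOn)).subset ?_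
      intro y hy
      simp only [Set.mem_ofPred_eq, Set.mem_union, Set.mem_preimage] at hy ⊢
      by_contra hcon
      push Not at hcon
      exact hy (hcon.1.trans (by rw [← mul_assoc]; exact hcon.2))
  obtain ⟨C, hC, hBC⟩ := h1 (fun x y => (if x ∈ A then 1 else 0) + (if y ∈ A then 1 else 0)) (by
      intro u
      refine (hfin u).subset fun x hx => ?_
      simp only [Set.mem_ofPred_eq] at hx ⊢
      intro h
      apply hx
      simp only [h]
      exact CharTwo.add_self_eq_zero _) (by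
      intro x y z
      have e : ∀ a : ZMod 2, a + a = 0 := CharTwo.add_self_eq_zero
      have : ∀ a b c : ZMod 2, (b + c) + (a + c) + (a + b) = (a + a) + (b + b) + (c + c) := by
        intro a b c; ring
      simp only [this, e, add_zero])
  have key : ∀ x y, x ∉ {x | C x ≠ 0} → y ∉ {x | C x ≠ 0} → (x ∈ A ↔ y ∈ A) := by
    intro x y hx hy
    simp only [Set.mem_ofPred_eq, not_not] at hx hy
    have := hBC x y
    rw [hx, hy, add_zero] at this
    by_cases h1 : x ∈ A <;> by_cases h2 : y ∈ A <;> simp_all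
  by_contra hcon
  rw [not_or] at hcon
  obtain ⟨x, hxA, hx⟩ := (Set.Infinite.diff hcon.1 hC).nonempty
  obtain ⟨y, hyA, hy⟩ := (Set.Infinite.diff hcon.2 hC).nonempty
  exact hyA ((key x y hx hy).1 hxA)

end Vale.Agent.P239.M.H260
end
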