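import Vale.Agent.P239.H260.Coh
import Mathlib.RepresentationTheory.Homological.GroupCohomology.LowDegree

set_option linter.all false

/-!
Mathlib's group cohomology `H¹(Γ; 𝔽₂[Γ])`, `H²(Γ; 𝔽₂[Γ])` in terms of homogeneous locally finite
cochains.
-/

section

namespace Vale.Agent.P239.M.H260

open Vale.Agent.P239 Vale.Agent.P239.M
open groupCohomology

variable {Γ : Type} [Group Γ]

theorem coeff_rho (g : Γ) (x : MonoidAlgebra (ZMod 2) Γ) (y : Γ) :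
    MonoidAlgebra.coeff ((Representation.leftRegular (ZMod 2) Γ) g x) y = x.coeff (g⁻¹ * y) := by
  have h : MonoidAlgebra.coeff ((Representation.leftRegular (ZMod 2) Γ) g x) =
      Finsupp.mapDomain (Equiv.mulLeft g) x.coeff := rfl
  rw [h, Finsupp.mapDomain_equiv_apply]
  simp

theorem HOne_of (h : Subsingleton (groupCohomology (Rep.leftRegular (ZMod 2) Γ) 1)) :
    HOne Γ := by
  classical
  intro B hB hcoc
  have hfin : ∀ g : Γ, (Function.support fun γ : Γ => B γ⁻¹ (γ⁻¹ * g)).Finite := by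
    intro g
    exact (hB g).preimage (inv_injective.injOn)
  let f : Γ → Rep.leftRegular (ZMod 2) Γ := fun g =>
    MonoidAlgebra.ofCoeff (Finsupp.ofSupportFinite (fun γ : Γ => B γ⁻¹ (γ⁻¹ * g)) (hfin g))
  have hfc : ∀ g γ, MonoidAlgebra.coeff (R := ZMod 2) (M := Γ) (f g) γ = B γ⁻¹ (γ⁻¹ * g) :=
    fun _ _ => rfl
  have hf : f ∈ cocycles₁ (Rep.leftRegular (ZMod 2) Γ) := by
    rw [mem_cocycles₁_def]
    intro g h
    refine MonoidAlgebra.coeff_injective (Finsupp.ext fun γ => ?_)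
    change MonoidAlgebra.coeff (Representation.leftRegular (ZMod 2) Γ g (f h)) γ -
      MonoidAlgebra.coeff (R := ZMod 2) (M := Γ) (f (g * h)) γ +
      MonoidAlgebra.coeff (R := ZMod 2) (M := Γ) (f g) γ = 0
    rw [coeff_rho, hfc, hfc, hfc, ← hcoc γ⁻¹ (γ⁻¹ * g) (γ⁻¹ * (g * h)), CharTwo.sub_eq_add]
    simp [mul_assoc]
  have h0 : H1π (Rep.leftRegular (ZMod 2) Γ) ⟨f, hf⟩ = 0 := Subsingleton.elim _ _
  rw [H1π_eq_zero_iff] at h0
  obtain ⟨a, ha⟩ := h0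
  have ha' : ∀ g : Γ, (Representation.leftRegular (ZMod 2) Γ) g a - a = f g := fun g =>
    congrFun ha g
  refine ⟨fun x => MonoidAlgebra.coeff (R := ZMod 2) (M := Γ) a x⁻¹, ?_, fun x y => ?_⟩
  · exact (MonoidAlgebra.coeff (R := ZMod 2) (M := Γ) a).finite_support.preimage
      (inv_injective.injOn)
  · have e := congrArg (fun t => MonoidAlgebra.coeff (R := ZMod 2) (M := Γ) t x⁻¹) (ha' (x⁻¹ * y))
    change MonoidAlgebra.coeff (Representation.leftRegular (ZMod 2) Γ (x⁻¹ * y) a) x⁻¹ -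
      MonoidAlgebra.coeff (R := ZMod 2) (M := Γ) a x⁻¹ = B x⁻¹⁻¹ (x⁻¹⁻¹ * (x⁻¹ * y)) at e
    rw [coeff_rho, CharTwo.sub_eq_add] at e
    simp only [inv_inv, mul_inv_cancel_left, mul_inv_rev, inv_mul_cancel_right, mul_assoc,
      mul_inv_cancel, mul_one] at e
    exact e.symm

theorem HTwo_of (h : Subsingleton (groupCohomology (Rep.leftRegular (ZMod 2) Γ) 2)) :
    HTwo Γ := by
  classical
  intro B hB hcoc
  have hfin : ∀ g h : Γ, (Function.support fun γ : Γ =>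
      B γ⁻¹ (γ⁻¹ * g) (γ⁻¹ * (g * h))).Finite := by
    intro g h
    exact (hB g (g * h)).preimage (inv_injective.injOn)
  let f : Γ × Γ → Rep.leftRegular (ZMod 2) Γ := fun p =>
    MonoidAlgebra.ofCoeff (Finsupp.ofSupportFinite
      (fun γ : Γ => B γ⁻¹ (γ⁻¹ * p.1) (γ⁻¹ * (p.1 * p.2))) (hfin p.1 p.2))
  have hfc : ∀ g h γ, MonoidAlgebra.coeff (R := ZMod 2) (M := Γ) (f (g, h)) γ =
      B γ⁻¹ (γ⁻¹ * g) (γ⁻¹ * (g * h)) := fun _ _ _ => rfl
  have hf : f ∈ cocycles₂ (Rep.leftRegular (ZMod 2) Γ) := by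
    rw [mem_cocycles₂_def]
    intro g h j
    refine MonoidAlgebra.coeff_injective (Finsupp.ext fun γ => ?_)
    change MonoidAlgebra.coeff (Representation.leftRegular (ZMod 2) Γ g (f (h, j))) γ -
      MonoidAlgebra.coeff (R := ZMod 2) (M := Γ) (f (g * h, j)) γ +
      MonoidAlgebra.coeff (R := ZMod 2) (M := Γ) (f (g, h * j)) γ -
      MonoidAlgebra.coeff (R := ZMod 2) (M := Γ) (f (g, h)) γ = 0
    rw [coeff_rho, hfc, hfc, hfc, hfc,
      ← hcoc γ⁻¹ (γ⁻¹ * g) (γ⁻¹ * (g * h)) (γ⁻¹ * (g * (h * j))), CharTwo.sub_eq_add,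
      CharTwo.sub_eq_add]
    simp [mul_assoc]
  have h0 : H2π (Rep.leftRegular (ZMod 2) Γ) ⟨f, hf⟩ = 0 := Subsingleton.elim _ _
  rw [H2π_eq_zero_iff] at h0
  obtain ⟨a, ha⟩ := h0
  have ha' : ∀ g h : Γ, (Representation.leftRegular (ZMod 2) Γ) g (a h) - a (g * h) + a g =
      f (g, h) := fun g h => congrFun ha (g, h)
  refine ⟨fun x y => MonoidAlgebra.coeff (R := ZMod 2) (M := Γ) (a (x⁻¹ * y)) x⁻¹, ?_,
    fun x y z => ?_⟩
  · intro u
    simp only [inv_mul_cancel_left]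
    exact (MonoidAlgebra.coeff (R := ZMod 2) (M := Γ) (a u)).finite_support.preimage
      (inv_injective.injOn)
  · have e := congrArg (fun t => MonoidAlgebra.coeff (R := ZMod 2) (M := Γ) t x⁻¹)
      (ha' (x⁻¹ * y) (y⁻¹ * z))
    change MonoidAlgebra.coeff (Representation.leftRegular (ZMod 2) Γ (x⁻¹ * y) (a (y⁻¹ * z))) x⁻¹ -
      MonoidAlgebra.coeff (R := ZMod 2) (M := Γ) (a (x⁻¹ * y * (y⁻¹ * z))) x⁻¹ +
      MonoidAlgebra.coeff (R := ZMod 2) (M := Γ) (a (x⁻¹ * y)) x⁻¹ =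
      B x⁻¹⁻¹ (x⁻¹⁻¹ * (x⁻¹ * y)) (x⁻¹⁻¹ * (x⁻¹ * y * (y⁻¹ * z))) at e
    rw [coeff_rho, CharTwo.sub_eq_add] at e
    have e1 : (x⁻¹ * y)⁻¹ * x⁻¹ = y⁻¹ := by group
    have e2 : x⁻¹ * y * (y⁻¹ * z) = x⁻¹ * z := by group
    rw [e1, e2, inv_inv, mul_inv_cancel_left, mul_inv_cancel_left] at e
    exact e.symm

end Vale.Agent.P239.M.H260
end
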