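import Mathlib.Algebra.MonoidAlgebra.Basic
import Mathlib.Algebra.Exact.Basic
import Mathlib.Data.ZMod.Defs
import Mathlib.Algebra.Field.ZMod
import Mathlib.LinearAlgebra.Pi

/-!
Groups of type `FP₃` over `𝔽₂`.
-/

namespace Vale.Agent.P239.H260

/-- `Γ` is of type `FP₃` over `𝔽₂`: the trivial module `𝔽₂` has a partial resolution of length 3 by
finitely generated free `𝔽₂[Γ]`-modules, `F₃ → F₂ → F₁ → F₀ → 𝔽₂ → 0`. -/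
def TypeFP3 (Γ : Type*) [Group Γ] : Prop :=
  ∃ (m₀ m₁ m₂ m₃ : ℕ)
    (ε : (Fin m₀ → MonoidAlgebra (ZMod 2) Γ) →+ ZMod 2)
    (d₁ : (Fin m₁ → MonoidAlgebra (ZMod 2) Γ) →ₗ[MonoidAlgebra (ZMod 2) Γ]
      (Fin m₀ → MonoidAlgebra (ZMod 2) Γ))
    (d₂ : (Fin m₂ → MonoidAlgebra (ZMod 2) Γ) →ₗ[MonoidAlgebra (ZMod 2) Γ]
      (Fin m₁ → MonoidAlgebra (ZMod 2) Γ))
    (d₃ : (Fin m₃ → MonoidAlgebra (ZMod 2) Γ) →ₗ[MonoidAlgebra (ZMod 2) Γ]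
      (Fin m₂ → MonoidAlgebra (ZMod 2) Γ)),
    (∀ (g : Γ) (v : Fin m₀ → MonoidAlgebra (ZMod 2) Γ),
      ε (MonoidAlgebra.of (ZMod 2) Γ g • v) = ε v) ∧
    Function.Surjective ε ∧ Function.Exact d₁ ε ∧ Function.Exact d₂ d₁ ∧ Function.Exact d₃ d₂

end Vale.Agent.P239.H260
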