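import Vale.Agent.P239.H260.Coh
import Vale.Agent.P239.H260.DefFP3

set_option linter.all false

/-!
Groups of type `FP₃` over `𝔽₂` are coarsely acyclic in degrees at most 2.
-/

section

namespace Vale.Agent.P239.M.H260

open Vale.Agent.P239 Vale.Agent.P239.M Vale.Agent.P239.M.Out
open Vale.Agent.P239.TF (On mem_On single_mem_On map_mem_of map_eq_of On_mono)

variable {Γ : Type*} [Group Γ]

/-- lists of length `n` -/
abbrev Ln (Γ : Type*) (n : ℕ) : Submodule (ZMod 2) (Ch (ZMod 2) Γ) :=
  On (fun l : List Γ => l.length = n)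

/-- small lists of length `n` -/
abbrev Lns (n : ℕ) (R : Finset Γ) : Submodule (ZMod 2) (Ch (ZMod 2) Γ) :=
  On (fun l : List Γ => l.length = n ∧ SmG R l)

theorem Lns_le (n : ℕ) (R : Finset Γ) : Lns n R ≤ Ln Γ n := On_mono fun _ h => h.1

theorem Lns_mono {n : ℕ} {R R' : Finset Γ} (h : R ⊆ R') : Lns n R ≤ Lns n R' :=
  On_mono fun _ hl => ⟨hl.1, SmG.mono h hl.2⟩

theorem tr_mem_Lns {n : ℕ} {R : Finset Γ} {c : Ch (ZMod 2) Γ} (x : Γ) (h : c ∈ Lns n R) :
    tr x c ∈ Lns n R := sup_iff.1 (sup_tr x (sup_iff.2 h))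

theorem tr_mem_Ln {n : ℕ} {c : Ch (ZMod 2) Γ} (x : Γ) (h : c ∈ Ln Γ n) : tr x c ∈ Ln Γ n := by
  refine map_mem_of h (tr x) _ fun t ht => ?_
  rw [tr_single]
  exact single_mem_On (by rw [List.length_map]; exact ht) 1

theorem cone_mem_Ln {n : ℕ} {c : Ch (ZMod 2) Γ} (x : Γ) (h : c ∈ Ln Γ n) :
    cone x c ∈ Ln Γ (n + 1) := by
  refine map_mem_of h (cone x) _ fun t ht => ?_
  rw [cone_single]
  exact single_mem_On (by rw [List.length_cons, ht]) 1

theorem bdL_mem_Ln : ∀ (l : List Γ), bdL (ZMod 2) l ∈ Ln Γ (l.length - 1)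
  | [] => by rw [bdL]; exact Submodule.zero_mem _
  | x :: l => by
    rw [bdL, List.length_cons, Nat.add_sub_cancel]
    have h0 : (Finsupp.single l 1 : Ch (ZMod 2) Γ) ∈ Ln Γ l.length :=
      single_mem_On (P := fun t : List Γ => t.length = l.length) rfl 1
    refine Submodule.sub_mem _ h0 ?_
    match l with
    | [] => rw [bdL, map_zero]; exact Submodule.zero_mem _
    | y :: l' =>
      have := cone_mem_Ln x (bdL_mem_Ln (y :: l'))
      rwa [List.length_cons, Nat.add_sub_cancel] at this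

theorem bd_mem_Ln {n : ℕ} {c : Ch (ZMod 2) Γ} (h : c ∈ Ln Γ (n + 1)) : bd c ∈ Ln Γ n := by
  refine map_mem_of h bd _ fun t ht => ?_
  rw [bd_single, one_smul]
  have := bdL_mem_Ln t
  rwa [ht, Nat.add_sub_cancel] at this

/-- every chain of lists of length `n` is of bounded mesh -/
theorem exists_scale {n : ℕ} {c : Ch (ZMod 2) Γ} (h : c ∈ Ln Γ n) : ∃ R : Finset Γ, c ∈ Lns n R := by
  classical
  refine ⟨c.support.biUnion fun l => (l.toFinset ×ˢ l.toFinset).image fun p => p.1⁻¹ * p.2,
    fun t ht => ⟨h t ht, fun x hx y hy => ?_⟩⟩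
  refine Finset.mem_biUnion.2 ⟨t, Finsupp.mem_support_iff.2 ht, Finset.mem_image.2 ⟨(x, y), ?_, rfl⟩⟩
  exact Finset.mem_product.2 ⟨List.mem_toFinset.2 hx, List.mem_toFinset.2 hy⟩

theorem exists_scale_fin {n : ℕ} {ι : Type*} (s : Finset ι) (c : ι → Ch (ZMod 2) Γ)
    (h : ∀ i ∈ s, c i ∈ Ln Γ n) : ∃ R : Finset Γ, ∀ i ∈ s, c i ∈ Lns n R := by
  classical
  have h1 : ∀ i : ι, ∃ R : Finset Γ, i ∈ s → c i ∈ Lns n R := by
    intro i
    by_cases hi : i ∈ s
    · obtain ⟨R, hR⟩ := exists_scale (h i hi)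
      exact ⟨R, fun _ => hR⟩
    · exact ⟨∅, fun h => absurd h hi⟩
  choose R hR using h1
  exact ⟨s.biUnion R, fun i hi => Lns_mono (Finset.subset_biUnion_of_mem R hi) (hR i hi)⟩

/-- Additive maps agree on chains supported on `P` if they agree on lists. -/
theorem add_eq_of {P : List Γ → Prop} {c : Ch (ZMod 2) Γ}
    (hc : c ∈ (On P : Submodule (ZMod 2) (Ch (ZMod 2) Γ))) {B : Type*} [AddCommGroup B]
    (φ ψ : Ch (ZMod 2) Γ →+ B)
    (h : ∀ t, P t → φ (Finsupp.single t 1) = ψ (Finsupp.single t 1)) : φ c = ψ c := by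
  classical
  rw [← Finsupp.sum_single c, Finsupp.sum, map_sum, map_sum]
  refine Finset.sum_congr rfl fun t ht => ?_
  have h1 : c t ≠ 0 := Finsupp.mem_support_iff.1 ht
  have h2 : c t = 1 := by
    revert h1
    generalize c t = r
    revert r
    decide
  rw [h2]
  exact h t (hc t h1)

/-- The free module `𝔽₂[Γ]^m`. -/
abbrev Fr (Γ : Type*) [Group Γ] (m : ℕ) := Fin m → MonoidAlgebra (ZMod 2) Γ

/-- the action of `Γ` on the free module -/
noncomputable def act (m : ℕ) (g : Γ) : Fr Γ m →+ Fr Γ m :=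
  DistribSMul.toAddMonoidHom _ (MonoidAlgebra.of (ZMod 2) Γ g)

/-- basis elements and their translates -/
noncomputable def bas {m : ℕ} (j : Fin m) (γ : Γ) : Fr Γ m :=
  Pi.single j (MonoidAlgebra.single γ 1)

theorem act_bas {m : ℕ} (g : Γ) (j : Fin m) (γ : Γ) : act m g (bas j γ) = bas j (g * γ) := by
  classical
  change MonoidAlgebra.of (ZMod 2) Γ g • Pi.single j (MonoidAlgebra.single γ 1) = _
  rw [← Pi.single_smul, smul_eq_mul, MonoidAlgebra.of_apply, MonoidAlgebra.single_mul_single,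
    one_mul]
  rfl

theorem act_act {m : ℕ} (g h : Γ) (v : Fr Γ m) : act m g (act m h v) = act m (g * h) v := by
  change MonoidAlgebra.of (ZMod 2) Γ g • MonoidAlgebra.of (ZMod 2) Γ h • v = _
  rw [smul_smul, ← map_mul]
  rfl

theorem fr_ext {m : ℕ} {B : Type*} [AddCommMonoid B] (f g : Fr Γ m →+ B)
    (h : ∀ j γ, f (bas j γ) = g (bas j γ)) : f = g := by
  classical
  refine AddMonoidHom.functions_ext' _ _ _ fun j => ?_
  refine MonoidAlgebra.addMonoidHom_ext fun γ r => ?_
  have hr : r = 0 ∨ r = 1 := by revert r; decide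
  rcases hr with rfl | rfl
  · simp
  · exact h j γ

theorem fr_mem {m : ℕ} (f : Fr Γ m →+ Ch (ZMod 2) Γ) (P : Submodule (ZMod 2) (Ch (ZMod 2) Γ))
    (h : ∀ j γ, f (bas j γ) ∈ P) (v : Fr Γ m) : f v ∈ P := by
  have h1 : P.mkQ.toAddMonoidHom.comp f = 0 := by
    refine fr_ext _ _ fun j γ => ?_
    have := h j γ
    change P.mkQ (f (bas j γ)) = 0
    rwa [Submodule.mkQ_apply, Submodule.Quotient.mk_eq_zero]
  have h2 : P.mkQ (f v) = 0 := DFunLike.congr_fun h1 v
  rwa [Submodule.mkQ_apply, Submodule.Quotient.mk_eq_zero] at h2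

/-- the equivariant map with values `c j` on the basis -/
noncomputable def lft {m : ℕ} (c : Fin m → Ch (ZMod 2) Γ) : Fr Γ m →+ Ch (ZMod 2) Γ :=
  ∑ j, ((Finsupp.linearCombination (ZMod 2) (fun γ => tr γ (c j))) ∘ₗ
    (MonoidAlgebra.coeffLinearEquiv (ZMod 2)).toLinearMap).toAddMonoidHom.comp
      (Pi.evalAddMonoidHom _ j)

theorem lft_bas {m : ℕ} (c : Fin m → Ch (ZMod 2) Γ) (j : Fin m) (γ : Γ) :
    lft c (bas j γ) = tr γ (c j) := by
  classical
  rw [lft, AddMonoidHom.finset_sum_apply, Finset.sum_eq_single j]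
  · simp [bas]
  · intro i _ hij
    simp [bas, Pi.single_eq_of_ne hij]
  · intro h; exact absurd (Finset.mem_univ j) h

theorem lft_act {m : ℕ} (c : Fin m → Ch (ZMod 2) Γ) (g : Γ) (v : Fr Γ m) :
    lft c (act m g v) = tr g (lft c v) := by
  have h : (lft c).comp (act m g) = (tr g).toAddMonoidHom.comp (lft c) := by
    refine fr_ext _ _ fun j γ => ?_
    change lft c (act m g (bas j γ)) = tr g (lft c (bas j γ))
    rw [act_bas, lft_bas, lft_bas, tr_tr]
  exact DFunLike.congr_fun h v

/-- Comparison data between the chains on lists of length `n` and a module `N` with an action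
`ρ`; `Z` is the group of cycles of `N`. -/
structure Stage (n : ℕ) (N : Type*) [AddCommGroup N] (ρ : Γ → N →+ N) (Z : N → Prop) where
  α : N →+ Ch (ZMod 2) Γ
  αeq : ∀ g m, α (ρ g m) = tr g (α m)
  αmem : ∀ m, α m ∈ Ln Γ n
  αbd : ∀ m, Z m → bd (α m) = 0
  β : Ch (ZMod 2) Γ →+ N
  βeq : ∀ g c, c ∈ Ln Γ n → β (tr g c) = ρ g (β c)
  βZ : ∀ c, c ∈ Ln Γ n → bd c = 0 → Z (β c)
  h : Ch (ZMod 2) Γ →ₗ[ZMod 2] Ch (ZMod 2) Γ
  heq : ∀ g c, c ∈ Ln Γ n → h (tr g c) = tr g (h c)
  hmem : ∀ c, c ∈ Ln Γ n → h c ∈ Ln Γ (n + 1)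
  hsc : ∀ S : Finset Γ, ∃ R : Finset Γ, ∀ c, c ∈ Lns n S → h c ∈ Lns (n + 1) R
  hbd : ∀ c, c ∈ Ln Γ n → bd c = 0 → bd (h c) = c - α (β c)

/-- The stage of the augmentation. -/
noncomputable def stage0 : Stage (Γ := Γ) 0 (ZMod 2) (fun _ => AddMonoidHom.id _) (fun _ => True) where
  α := (Finsupp.singleAddHom [])
  αeq g m := by
    simp only [AddMonoidHom.id_apply, Finsupp.singleAddHom_apply]
    rw [tr_single, List.map_nil]
  αmem m := by
    simp only [Finsupp.singleAddHom_apply]
    exact single_mem_On (P := fun t : List Γ => t.length = 0) rfl m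
  αbd m _ := by
    simp only [Finsupp.singleAddHom_apply]
    rw [bd_single, bdL, smul_zero]
  β := Finsupp.applyAddHom []
  βeq g c hc := by
    have h1 : tr g c = c := by
      refine map_eq_of hc (tr g) LinearMap.id fun t ht => ?_
      rw [List.length_eq_zero_iff] at ht
      subst ht
      rw [tr_single, List.map_nil, LinearMap.id_apply]
    rw [h1, AddMonoidHom.id_apply]
  βZ _ _ _ := trivial
  h := 0
  heq g c _ := by rw [LinearMap.zero_apply, LinearMap.zero_apply, map_zero]
  hmem c _ := by rw [LinearMap.zero_apply]; exact Submodule.zero_mem _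
  hsc S := ⟨∅, fun c _ => by rw [LinearMap.zero_apply]; exact Submodule.zero_mem _⟩
  hbd c hc _ := by
    rw [LinearMap.zero_apply, map_zero, eq_comm, sub_eq_zero]
    ext t
    simp only [Finsupp.singleAddHom_apply, Finsupp.applyAddHom_apply]
    by_cases ht : t = []
    · subst ht; simp
    · rw [Finsupp.single_apply, if_neg (Ne.symm ht)]
      by_contra hne
      exact ht (List.length_eq_zero_iff.1 (hc t hne))

/-- lists of length `n` with entries in `S` -/
noncomputable def lists (S : Finset Γ) : ℕ → Set (List Γ)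
  | n => {t | t.length = n ∧ ∀ y ∈ t, y ∈ S}

theorem lists_finite (S : Finset Γ) (n : ℕ) : (lists S n).Finite := by
  induction n with
  | zero =>
    refine (Set.finite_singleton ([] : List Γ)).subset ?_
    rintro t ⟨ht, -⟩
    exact List.length_eq_zero_iff.1 ht
  | succ n ih =>
    refine (S.finite_toSet.image2 (fun x t => x :: t) ih).subset ?_
    rintro t ⟨ht, hS⟩
    match t, ht with
    | x :: t, ht =>
      exact ⟨x, hS x (by simp), t, ⟨by simpa using ht, fun y hy => hS y (by simp [hy])⟩, rfl⟩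

theorem tr_bdL (x : Γ) (l : List Γ) :
    tr x (bdL (ZMod 2) l) = bdL (ZMod 2) (l.map (fun y => x * y)) := pf_bdL _ _

theorem map_inv_map (x : Γ) (t : List Γ) :
    (t.map (fun y => x⁻¹ * y)).map (fun y => x * y) = t := by
  rw [List.map_map]
  have : ((fun y => x * y) ∘ fun y => x⁻¹ * y) = id := by funext y; simp
  rw [this, List.map_id]

/-- equivariant extension of a function on normalised lists (first entry `1`) -/
noncomputable def eqv {B : Type*} [Zero B] (ρ : Γ → B → B) (b : List Γ → B) : List Γ → B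
  | [] => 0
  | x :: t => ρ x (b (t.map (fun y => x⁻¹ * y)))

theorem eqv_map {B : Type*} [Zero B] (ρ : Γ → B → B) (hρ : ∀ g h v, ρ g (ρ h v) = ρ (g * h) v)
    (b : List Γ → B) (g : Γ) : ∀ l : List Γ, l ≠ [] →
    eqv ρ b (l.map (fun y => g * y)) = ρ g (eqv ρ b l)
  | [], h => absurd rfl h
  | x :: t, _ => by
    rw [List.map_cons, eqv, eqv, hρ, List.map_map]
    congr 2
    refine List.map_congr_left fun y _ => ?_
    simp only [Function.comp_apply]
    group

/-- The inductive step. -/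
theorem Stage.step {n : ℕ} {N : Type*} [AddCommGroup N] {ρ : Γ → N →+ N} {Z : N → Prop}
    (st : Stage n N ρ Z) {m : ℕ} (d : Fr Γ m →+ N) (hd : ∀ g v, d (act m g v) = ρ g (d v))
    (hex : ∀ x, Z x ↔ ∃ v, d v = x) :
    CFillS (ZMod 2) Γ n ∧ Nonempty (Stage (n + 1) (Fr Γ m) (act m) (fun v => d v = 0)) := by
  classical
  -- the chain map on the free module
  let c : Fin m → Ch (ZMod 2) Γ := fun j => cone 1 (st.α (d (bas j 1)))
  have hcmem : ∀ j, c j ∈ Ln Γ (n + 1) := fun j => cone_mem_Ln 1 (st.αmem _)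
  have hZd : ∀ v, Z (d v) := fun v => (hex _).2 ⟨v, rfl⟩
  have hcbd : ∀ j, bd (c j) = st.α (d (bas j 1)) := by
    intro j
    rw [bd_cone, st.αbd _ (hZd _), map_zero, sub_zero]
  let α' : Fr Γ m →+ Ch (ZMod 2) Γ := lft c
  have hα'bd : ∀ v, bd (α' v) = st.α (d v) := by
    have h : bd.toAddMonoidHom.comp α' = st.α.comp d := by
      refine fr_ext _ _ fun j γ => ?_
      change bd (lft c (bas j γ)) = st.α (d (bas j γ))
      have e : (bas j γ : Fr Γ m) = act m γ (bas j 1) := by rw [act_bas, mul_one]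
      rw [lft_bas, bd_tr, hcbd, e, hd, st.αeq]
    exact fun v => DFunLike.congr_fun h v
  obtain ⟨Rα, hRα⟩ := exists_scale_fin Finset.univ c fun j _ => hcmem j
  have hα's : ∀ v, α' v ∈ Lns (n + 1) Rα := fr_mem α' _ fun j γ => by
    rw [lft_bas]; exact tr_mem_Lns γ (hRα j (Finset.mem_univ j))
  refine ⟨?_, ⟨?_⟩⟩
  · -- filling
    intro S
    obtain ⟨Rh, hRh⟩ := st.hsc S
    refine ⟨S ∪ Rα ∪ Rh, fun g hg => by simp [hg], fun z hz hzs => ?_⟩
    have hzL : z ∈ Lns n S := sup_iff.1 hzs
    have hzn : z ∈ Ln Γ n := Lns_le _ _ hzL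
    obtain ⟨w, hw⟩ := (hex _).1 (st.βZ z hzn hz)
    refine ⟨α' w + st.h z, ?_, ?_⟩
    · rw [map_add, hα'bd, hw, st.hbd z hzn hz]; abel
    · rw [sup_iff]
      exact Submodule.add_mem _
        (Lns_mono (fun g hg => by simp [hg]) (hα's w))
        (Lns_mono (fun g hg => by simp [hg]) (hRh z hzL))
  · -- comparison on normalised lists
    have hbL : ∀ t : List Γ, t.length = n → bdL (ZMod 2) (1 :: t) ∈ Ln Γ n := by
      intro t ht
      have := bdL_mem_Ln ((1 : Γ) :: t)
      rwa [List.length_cons, Nat.add_sub_cancel, ht] at this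
    have hb : ∀ t : List Γ, ∃ v, t.length = n → d v = st.β (bdL (ZMod 2) (1 :: t)) := by
      intro t
      by_cases ht : t.length = n
      · obtain ⟨v, hv⟩ := (hex _).1 (st.βZ _ (hbL t ht) (bd_bdL _))
        exact ⟨v, fun _ => hv⟩
      · exact ⟨0, fun h => absurd h ht⟩
    choose b hb using hb
    let bb : List Γ → Fr Γ m := eqv (fun g v => act m g v) b
    have hbbmap : ∀ (g : Γ) (l : List Γ), l ≠ [] →
        bb (l.map (fun y => g * y)) = act m g (bb l) :=
      fun g l hl => eqv_map _ (fun g h v => act_act g h v) b g l hl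
    let β' : Ch (ZMod 2) Γ →+ Fr Γ m := (Finsupp.linearCombination (ZMod 2) bb).toAddMonoidHom
    have hβ's : ∀ l, β' (Finsupp.single l 1) = bb l := by
      intro l
      change Finsupp.linearCombination (ZMod 2) bb (Finsupp.single l 1) = bb l
      rw [Finsupp.linearCombination_single, one_smul]
    have hdbb : ∀ l : List Γ, l.length = n + 1 → d (bb l) = st.β (bdL (ZMod 2) l) := by
      intro l hl
      match l, hl with
      | x :: t, hl =>
        have ht : (t.map (fun y => x⁻¹ * y)).length = n := by simpa using hl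
        change d (act m x (b (t.map (fun y => x⁻¹ * y)))) = _
        rw [hd, hb _ ht, ← st.βeq _ _ (hbL _ ht), tr_bdL, List.map_cons, map_inv_map, mul_one]
    have hdβ' : ∀ c, c ∈ Ln Γ (n + 1) → d (β' c) = st.β (bd c) := by
      intro c hc
      refine add_eq_of hc (d.comp β') (st.β.comp bd.toAddMonoidHom) fun t ht => ?_
      change d (β' (Finsupp.single t 1)) = st.β (bd (Finsupp.single t 1))
      rw [hβ's, hdbb t ht, bd_single, one_smul]
    -- the homotopy
    let κ : List Γ → Ch (ZMod 2) Γ := fun t =>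
      cone 1 (Finsupp.single (1 :: t) 1 - α' (b t) - st.h (bdL (ZMod 2) (1 :: t)))
    have hκmem : ∀ t, t.length = n → κ t ∈ Ln Γ (n + 2) := by
      intro t ht
      refine cone_mem_Ln 1 (Submodule.sub_mem _ (Submodule.sub_mem _ ?_ ?_) ?_)
      · exact single_mem_On (P := fun l : List Γ => l.length = n + 1)
          (by rw [List.length_cons, ht]) 1
      · exact Lns_le _ _ (hα's _)
      · exact st.hmem _ (hbL t ht)
    have hκbd : ∀ t, t.length = n → bd (κ t) =
        Finsupp.single (1 :: t) 1 - α' (b t) - st.h (bdL (ZMod 2) (1 :: t)) := by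
      intro t ht
      have h0 : bd (Finsupp.single (1 :: t) 1 - α' (b t) - st.h (bdL (ZMod 2) (1 :: t))) = 0 := by
        rw [map_sub, map_sub, hα'bd, hb t ht, bd_single, one_smul,
          st.hbd _ (hbL t ht) (bd_bdL _)]
        abel
      change bd (cone 1 _) = _
      rw [bd_cone, h0, map_zero, sub_zero]
    let hh : List Γ → Ch (ZMod 2) Γ := eqv (fun g v => tr g v) κ
    have hhmap : ∀ (g : Γ) (l : List Γ), l ≠ [] →
        hh (l.map (fun y => g * y)) = tr g (hh l) :=
      fun g l hl => eqv_map _ (fun g h v => tr_tr g h v) κ g l hl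
    let h' : Ch (ZMod 2) Γ →ₗ[ZMod 2] Ch (ZMod 2) Γ := ext hh
    have hh's : ∀ l, h' (Finsupp.single l 1) = hh l := by
      intro l
      change Finsupp.linearCombination (ZMod 2) hh (Finsupp.single l 1) = hh l
      rw [Finsupp.linearCombination_single, one_smul]
    have hbdhh : ∀ l : List Γ, l.length = n + 1 →
        bd (hh l) = Finsupp.single l 1 - α' (bb l) - st.h (bdL (ZMod 2) l) := by
      intro l hl
      match l, hl with
      | x :: t, hl =>
        have ht : (t.map (fun y => x⁻¹ * y)).length = n := by simpa using hl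
        change bd (tr x (κ (t.map (fun y => x⁻¹ * y)))) = _
        rw [bd_tr, hκbd _ ht, map_sub, map_sub, tr_single, List.map_cons, map_inv_map, mul_one,
          ← lft_act, ← st.heq _ _ (hbL _ ht), tr_bdL, List.map_cons, map_inv_map, mul_one]
        rfl
    have hne : ∀ t : List Γ, t.length = n + 1 → t ≠ [] := by
      intro t ht h; rw [h] at ht; simp at ht
    exact
      { α := α'
        αeq := fun g v => lft_act c g v
        αmem := fun v => Lns_le _ _ (hα's v)
        αbd := fun v hv => by rw [hα'bd, hv, map_zero]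
        β := β'
        βeq := fun g c hc => by
          refine add_eq_of hc (β'.comp (tr g).toAddMonoidHom) ((act m g).comp β') fun t ht => ?_
          change β' (tr g (Finsupp.single t 1)) = act m g (β' (Finsupp.single t 1))
          rw [tr_single, hβ's, hβ's, hbbmap g t (hne t ht)]
        βZ := fun c hc hbc => by rw [hdβ' c hc, hbc, map_zero]
        h := h'
        heq := fun g c hc => by
          refine map_eq_of hc (h' ∘ₗ tr g) (tr g ∘ₗ h') fun t ht => ?_
          change h' (tr g (Finsupp.single t 1)) = tr g (h' (Finsupp.single t 1))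
          rw [tr_single, hh's, hh's, hhmap g t (hne t ht)]
        hmem := fun c hc => by
          refine map_mem_of hc h' _ fun t ht => ?_
          rw [hh's]
          match t, ht with
          | x :: t, ht =>
            have ht' : (t.map (fun y => x⁻¹ * y)).length = n := by simpa using ht
            exact tr_mem_Ln x (hκmem _ ht')
        hsc := fun S => by
          obtain ⟨R, hR⟩ := exists_scale_fin (lists_finite S n).toFinset κ
            (fun t ht => hκmem t ((Set.Finite.mem_toFinset _).1 ht).1)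
          refine ⟨R, fun c hc => ?_⟩
          refine map_mem_of hc h' _ fun t ht => ?_
          rw [hh's]
          match t, ht with
          | x :: t, ht =>
            have ht' : (t.map (fun y => x⁻¹ * y)).length = n := by simpa using ht.1
            refine tr_mem_Lns x (hR _ ((Set.Finite.mem_toFinset _).2 ⟨ht', ?_⟩))
            intro y hy
            obtain ⟨y', hy', rfl⟩ := List.mem_map.1 hy
            exact ht.2 x (by simp) y' (by simp [hy'])
        hbd := fun c hc hbc => by
          have h1 : bd (h' c) = c - α' (β' c) - st.h (bd c) := by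
            refine add_eq_of hc (bd.toAddMonoidHom.comp h'.toAddMonoidHom)
              (AddMonoidHom.id _ - α'.comp β' - (st.h.toAddMonoidHom.comp bd.toAddMonoidHom))
              fun t ht => ?_
            change bd (h' (Finsupp.single t 1)) = Finsupp.single t 1 -
              α' (β' (Finsupp.single t 1)) - st.h (bd (Finsupp.single t 1))
            rw [hh's, hβ's, hbdhh t ht, bd_single, one_smul]
          rw [h1, hbc, map_zero, sub_zero] }

/-- A group of type `FP₃` over `𝔽₂` is coarsely acyclic modulo 2 in degrees at most 2. -/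
theorem cfill_of_FP3 (h : Vale.Agent.P239.H260.TypeFP3 Γ) :
    CFillS (ZMod 2) Γ 1 ∧ CFillS (ZMod 2) Γ 2 ∧ CFillS (ZMod 2) Γ 3 := by
  obtain ⟨m₀, m₁, m₂, m₃, ε, d₁, d₂, d₃, hε, hsurj, h1, h2, h3⟩ := h
  obtain ⟨-, ⟨s1⟩⟩ := (stage0 (Γ := Γ)).step ε (fun g v => hε g v)
    (fun x => ⟨fun _ => hsurj x, fun _ => trivial⟩)
  obtain ⟨c1, ⟨s2⟩⟩ := s1.step d₁.toAddMonoidHom (fun g v => d₁.map_smul _ _)
    (fun x => h1 x)
  obtain ⟨c2, ⟨s3⟩⟩ := s2.step d₂.toAddMonoidHom (fun g v => d₂.map_smul _ _)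
    (fun x => h2 x)
  obtain ⟨c3, -⟩ := s3.step d₃.toAddMonoidHom (fun g v => d₃.map_smul _ _)
    (fun x => h3 x)
  exact ⟨c1, c2, c3⟩

end Vale.Agent.P239.M.H260
end
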