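import Vale.Agent.P239.H260.Coh

set_option linter.all false

/-!
Coarse acyclicity in degrees 0 and 1 gives exactness of closed 1-cochains at all large scales.
-/

section

namespace Vale.Agent.P239.M.H260

open Vale.Agent.P239 Vale.Agent.P239.M Vale.Agent.P239.M.Out
open Vale.Agent.P239.TF (On mem_On single_mem_On map_mem_of map_eq_of)
open scoped Pointwise

variable {Γ : Type*} [Group Γ]

/-- a cochain as a function of lists -/
def lift2 (b : Γ → Γ → ZMod 2) : List Γ → ZMod 2
  | [x, y] => b x y
  | _ => 0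

/-- paths from the base point -/
theorem exists_path (hf1 : CFillS (ZMod 2) Γ 1) : ∃ R : Finset Γ, 1 ∈ R ∧ ∀ w : Γ,
    ∃ c : Ch (ZMod 2) Γ, bd c = Finsupp.single [w] 1 - Finsupp.single [1] 1 ∧
      Sup (fun l => l.length = 2 ∧ SmG R l) c := by
  classical
  obtain ⟨R, hR1, hR⟩ := hf1 {1}
  refine ⟨R, hR1 (by simp), fun w => ?_⟩
  exact hR (Finsupp.single [w] 1 - Finsupp.single [1] 1)
    (by rw [map_sub, bd_single, bd_single, bdL_one, bdL_one, sub_self]) (by
      rw [sup_iff]
      refine Submodule.sub_mem _ (single_mem_On ⟨rfl, ?_⟩ 1) (single_mem_On ⟨rfl, ?_⟩ 1)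
      · intro a ha b hb
        simp only [List.mem_cons, List.not_mem_nil, or_false] at ha hb
        subst ha; subst hb; simp
      · intro a ha b hb
        simp only [List.mem_cons, List.not_mem_nil, or_false] at ha hb
        subst ha; subst hb; simp)

/-- a set over which paths exist generates -/
theorem closure_of_path {R : Finset Γ} (hR : ∀ w : Γ, ∃ c : Ch (ZMod 2) Γ,
    bd c = Finsupp.single [w] 1 - Finsupp.single [1] 1 ∧
      Sup (fun l => l.length = 2 ∧ SmG R l) c) : Subgroup.closure (R : Set Γ) = ⊤ := by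
  classical
  rw [eq_top_iff]
  intro w _
  obtain ⟨c, hc, hcs⟩ := hR w
  let χ : List Γ → ZMod 2 := fun l => match l with
    | [x] => if x ∈ Subgroup.closure (R : Set Γ) then 1 else 0
    | _ => 0
  have h0 : ext χ (bd c) = (0 : ZMod 2) := by
    rw [sup_iff] at hcs
    refine map_eq_of hcs (ext χ ∘ₗ bd) 0 fun t ht => ?_
    obtain ⟨hlen, hsm⟩ := ht
    rw [LinearMap.comp_apply, bd_single, one_smul, LinearMap.zero_apply]
    match t, hlen with
    | [x, y], _ =>
      have hxy : x⁻¹ * y ∈ Subgroup.closure (R : Set Γ) :=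
        Subgroup.subset_closure (Finset.mem_coe.2 (hsm x (by simp) y (by simp)))
      have hiff : y ∈ Subgroup.closure (R : Set Γ) ↔ x ∈ Subgroup.closure (R : Set Γ) := by
        constructor
        · intro hy
          have := mul_mem hy (inv_mem hxy)
          simpa using this
        · intro hx
          have := mul_mem hx hxy
          simpa using this
      rw [bdL_two, map_sub]
      simp only [Finsupp.linearCombination_single, one_smul, χ, hiff, sub_self]
  rw [hc, map_sub] at h0
  simp only [Finsupp.linearCombination_single, one_smul, χ, one_mem, if_true] at h0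
  by_contra hw
  rw [if_neg hw] at h0
  simp at h0

/-- Exactness of closed 1-cochains modulo 2 at all large scales. -/
theorem h1Ex_of_cfill (hf1 : CFillS (ZMod 2) Γ 1) (hf2 : CFillS (ZMod 2) Γ 2)
    [DecidableEq Γ] : ∃ S : Finset Γ, Subgroup.closure (S : Set Γ) = ⊤ ∧ (∀ s ∈ S, s⁻¹ ∈ S) ∧
      1 ∈ S ∧ ∃ n₀ : ℕ, 1 ≤ n₀ ∧ ∀ n, n₀ ≤ n → F.H1Ex (S ^ n) := by
  obtain ⟨R, h1R, hR⟩ := exists_path hf1
  have hclR := closure_of_path hR
  let S : Finset Γ := R ∪ R.image (fun g => g⁻¹)
  have hRS : R ⊆ S := Finset.subset_union_left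
  have hS : Subgroup.closure (S : Set Γ) = ⊤ := by
    rw [eq_top_iff, ← hclR]
    exact Subgroup.closure_mono (by exact_mod_cast hRS)
  have hsym : ∀ s ∈ S, s⁻¹ ∈ S := by
    intro g hg
    simp only [S, Finset.mem_union, Finset.mem_image] at hg ⊢
    rcases hg with hg | ⟨a, ha, rfl⟩
    · right; exact ⟨g, hg, rfl⟩
    · left; simpa using ha
  have h1 : (1 : Γ) ∈ S := hRS h1R
  obtain ⟨W, hSW, hW⟩ := hf2 S
  have hex : ∀ (c : Γ → Γ → ZMod 2), (∀ u : Γ, Vale.Agent.P239.F.AddOn c {h | u⁻¹ * h ∈ W}) →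
        ∃ f : Γ → ZMod 2, ∀ s ∈ S, ∀ p : Γ, c p (p * s) = f (p * s) - f p := by
    intro c hc
    let K : Ch (ZMod 2) Γ →ₗ[ZMod 2] ZMod 2 := ext (lift2 c)
    have hK : ∀ z : Ch (ZMod 2) Γ, bd z = 0 → Sup (fun l => l.length = 2 ∧ SmG S l) z →
        K z = 0 := by
      intro z hz hzs
      obtain ⟨w, hw, hws⟩ := hW z hz hzs
      rw [← hw]
      rw [sup_iff] at hws
      refine map_eq_of hws (K ∘ₗ bd) 0 fun t ht => ?_
      obtain ⟨hlen, hsm⟩ := ht
      rw [LinearMap.comp_apply, bd_single, one_smul, LinearMap.zero_apply]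
      match t, hlen with
      | [x, y, z], _ =>
        have h := hc x x (hsm x (by simp) x (by simp)) y (hsm x (by simp) y (by simp)) z
          (hsm x (by simp) z (by simp))
        rw [bdL_three]
        simp only [K, map_sub, Finsupp.linearCombination_single, one_smul, lift2]
        rw [← h]
        ring
    choose p hp hps using hR
    refine ⟨fun x => K (p x), fun s hs x => ?_⟩
    have hsm : SmG S [x, x * s] := by
      intro a ha b hb
      simp only [List.mem_cons, List.not_mem_nil, or_false] at ha hb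
      rcases ha with rfl | rfl <;> rcases hb with rfl | rfl
      · simpa using h1
      · simpa using hs
      · simpa using hsym _ hs
      · simpa using h1
    have hps' : ∀ w, Sup (fun l => l.length = 2 ∧ SmG S l) (p w) := fun w l hl =>
      ⟨(hps w l hl).1, SmG.mono hRS (hps w l hl).2⟩
    have hz := hK (Finsupp.single [x, x * s] 1 - (p (x * s) - p x)) (by
      rw [map_sub, map_sub, bd_single, one_smul, bdL_two, hp, hp]; abel) (by
      rw [sup_iff]
      exact Submodule.sub_mem _ (single_mem_On ⟨rfl, hsm⟩ 1) (Submodule.sub_mem _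
        (sup_iff.1 (hps' _)) (sup_iff.1 (hps' _))))
    rw [map_sub, map_sub, sub_eq_zero] at hz
    rw [← hz]
    simp only [K, Finsupp.linearCombination_single, one_smul, lift2]
  obtain ⟨n₀, hn₀⟩ := Vale.Agent.P239.F.exists_subset_pow hS hsym h1 (W⁻¹ * W)
  exact ⟨S, hS, hsym, h1, n₀ + 1, by omega, fun n hn =>
    Vale.Agent.P239.F.h1Ex_pow hsym h1 hex (by omega) (hn₀ n (by omega))⟩

end Vale.Agent.P239.M.H260
end
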