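import Vale.Agent.P239.H260.Fp
import Vale.Agent.P239.H260.Coh2
import Vale.Agent.P239.H260.FP3

set_option linter.all false

/-!
Groups with `H¹(Γ; 𝔽₂Γ) = H²(Γ; 𝔽₂Γ) = 0` have vanishing first L2-Betti number.
-/

section

namespace Vale.Agent.P239.H260

open Vale.Agent.P239 Vale.Agent.P239.M.H260

open Classical in
/-- Torsion free groups, coarsely 2-acyclic modulo 2, with `H¹(Γ; 𝔽₂Γ) = H²(Γ; 𝔽₂Γ) = 0`. -/
theorem betti_one_coarse {X Γ : Type*} [TopologicalSpace X] [ContractibleSpace X] [Group Γ]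
    [MulAction Γ X] [ContinuousConstSMul Γ X] (hfree : ∀ (g : Γ) (x : X), g • x = x → g = 1)
    (htf : ∀ g : Γ, g ≠ 1 → ∀ n : ℕ, n ≠ 0 → g ^ n ≠ 1)
    (hf1 : Vale.Agent.P239.M.CFillS (ZMod 2) Γ 1) (hf2 : Vale.Agent.P239.M.CFillS (ZMod 2) Γ 2) (hf3 : Vale.Agent.P239.M.CFillS (ZMod 2) Γ 3)
    (h1 : HOne Γ) (h2 : HTwo Γ) : bettiTwo Γ X 1 = 0 :=
  betti_one_group hfree htf (h1Ex_of_cfill hf1 hf2)
    (fun S hS hsym => oneEnded_of_HOne h1 S hS hsym)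
    (fun S => by
      obtain ⟨T₀, h⟩ := h2Fill_of_HTwo h2 hf1 hf2 hf3 S
      exact ⟨T₀, fun T hT _ => h T hT⟩)

/-- Compact metrizable spaces with a contractible regular covering whose group has
`H¹(Γ; 𝔽₂Γ) = H²(Γ; 𝔽₂Γ) = 0`. -/
theorem betti_one_cover {M X : Type*} {Γ : Type} [TopologicalSpace M] [T2Space M] [CompactSpace M]
    [SecondCountableTopology M] [TopologicalSpace X] [ContractibleSpace X] [Group Γ]
    [MulAction Γ X] [ContinuousConstSMul Γ X] (p : X → M) (hp : IsQuotientCoveringMap p Γ)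
    (h1 : Subsingleton (groupCohomology (Rep.leftRegular (ZMod 2) Γ) 1))
    (h2 : Subsingleton (groupCohomology (Rep.leftRegular (ZMod 2) Γ) 2)) :
    bettiTwo Γ X 1 = 0 :=
  betti_one_of_cover hp (fun S hS hsym => oneEnded_of_HOne (HOne_of h1) S hS hsym)
    (fun S => by
      obtain ⟨T₀, h⟩ := h2Fill_of_HTwo (HTwo_of h2) (cfill_of_cover hp 1) (cfill_of_cover hp 2)
        (cfill_of_cover hp 3) S
      exact ⟨T₀, fun T hT _ => h T hT⟩)

/-- Torsion free groups of type `FP₃` over `𝔽₂` with `H¹(Γ; 𝔽₂Γ) = H²(Γ; 𝔽₂Γ) = 0` have vanishing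
first L2-Betti number. -/
theorem betti_one_FP3 {X : Type*} {Γ : Type} [TopologicalSpace X] [ContractibleSpace X] [Group Γ]
    [MulAction Γ X] [ContinuousConstSMul Γ X] (hfree : ∀ (g : Γ) (x : X), g • x = x → g = 1)
    (htf : ∀ g : Γ, g ≠ 1 → ∀ n : ℕ, n ≠ 0 → g ^ n ≠ 1) (hfp : TypeFP3 Γ)
    (h1 : Subsingleton (groupCohomology (Rep.leftRegular (ZMod 2) Γ) 1))
    (h2 : Subsingleton (groupCohomology (Rep.leftRegular (ZMod 2) Γ) 2)) :
    bettiTwo Γ X 1 = 0 :=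
  betti_one_coarse hfree htf (cfill_of_FP3 hfp).1 (cfill_of_FP3 hfp).2.1 (cfill_of_FP3 hfp).2.2
    (HOne_of h1) (HTwo_of h2)

end Vale.Agent.P239.H260
end
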