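import Vale.Agent.P239.Bdl.B21

set_option linter.all false

/-!
The degree one part of the Singer conjecture in every dimension `n ≥ 3`: the manifold side of the
four-dimensional argument, carried out in dimension `n`, and the assembly with the group theorem.
-/

section

/-! Facts on covers of compact Hausdorff spaces. -/

namespace Vale.Agent.P239.H260

open Metric Set Topology
open Vale.Agent.P239 Vale.Agent.P239.M

section Cover

variable {M X Γ : Type*} [TopologicalSpace M] [T2Space M] [TopologicalSpace X]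
  [Group Γ] [MulAction Γ X] {p : X → M} (hp : IsQuotientCoveringMap p Γ)
include hp

theorem t2_of_cover : T2Space X := by
  refine ⟨fun x y hxy => ?_⟩
  by_cases h : p x = p y
  · exact hp.isCoveringMap.isSeparatedMap x y h hxy
  · obtain ⟨A, B, hA, hB, hxA, hyB, hAB⟩ := t2_separation h
    exact ⟨p ⁻¹' A, p ⁻¹' B, hA.preimage hp.continuous, hB.preimage hp.continuous, hxA, hyB,
      hAB.preimage p⟩

theorem exists_cocomp [CompactSpace M] : LocallyCompactSpace X ∧
    ∃ B : Set X, IsCompact B ∧ ∀ x : X, ∃ g : Γ, ∃ y ∈ B, x = g • y := by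
  have hX : LocallyCompactSpace X := locallyCompact_of_cover hp
  refine ⟨hX, ?_⟩
  have hopen : IsOpenMap p := hp.isCoveringMap.isOpenMap
  have h1 : ∀ x : X, ∃ K : Set X, IsCompact K ∧ K ∈ 𝓝 x := fun x => exists_compact_mem_nhds x
  choose K hK hKx using h1
  obtain ⟨t, ht⟩ := isCompact_univ.elim_finite_subcover (fun x => p '' interior (K x))
    (fun x => hopen _ isOpen_interior) (by
      intro m _
      obtain ⟨x, rfl⟩ := hp.surjective m
      exact mem_iUnion.2 ⟨x, x, mem_interior_iff_mem_nhds.2 (hKx x), rfl⟩)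
  refine ⟨⋃ x ∈ t, K x, t.isCompact_biUnion fun x _ => hK x, fun x => ?_⟩
  obtain ⟨y, hy, z, hz, hzx⟩ := mem_iUnion₂.mp (ht (mem_univ (p x)))
  obtain ⟨g, hg⟩ := hp.apply_eq_iff_mem_orbit.mp hzx.symm
  exact ⟨g, z, mem_iUnion₂.2 ⟨y, hy, interior_subset hz⟩, Eq.symm hg⟩

theorem countable_deck [CompactSpace M] [ConnectedSpace X] [LocallyCompactSpace X] :
    Countable Γ := by
  have hfg : Group.FG Γ := fg_of_cover hp
  obtain ⟨S, hS⟩ := Group.fg_iff.1 hfg
  obtain ⟨hS, hfin⟩ := hS
  have : Countable S := hfin.countable.to_subtype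
  have h : Function.Surjective (FreeGroup.lift (fun s : S => (s : Γ))) := by
    rw [← MonoidHom.range_eq_top, FreeGroup.range_lift_eq_closure, Subtype.range_coe]
    exact hS
  exact h.countable

theorem metrizable_of_cover [CompactSpace M] [SecondCountableTopology M] [ContractibleSpace X] :
    TopologicalSpace.MetrizableSpace X := by
  obtain ⟨hX, B, hB, hcov⟩ := exists_cocomp hp
  have hcs : ContinuousConstSMul Γ X := hp.toContinuousConstSMul
  have h2 : T2Space X := t2_of_cover hp
  have hcount : Countable Γ := countable_deck hp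
  have hsig : SigmaCompactSpace X := by
    refine SigmaCompactSpace.of_countable (range fun g : Γ => (fun x => g • x) '' B)
      (countable_range _) ?_ ?_
    · rintro _ ⟨g, rfl⟩
      exact hB.image (continuous_const_smul g)
    · refine eq_univ_of_forall fun x => ?_
      obtain ⟨g, y, hy, rfl⟩ := hcov x
      exact ⟨_, ⟨g, rfl⟩, y, hy, rfl⟩
  have hsec : SecondCountableTopology X := by
    choose e he hpe using hp.isCoveringMap.isLocalHomeomorph
    obtain ⟨s, hs, hsu⟩ := countable_cover_nhds (fun x => (e x).open_source.mem_nhds (he x))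
    have hsc : Countable s := hs.to_subtype
    have hU : ∀ i : s, SecondCountableTopology (e i).source := by
      intro i
      exact ((e i).toHomeomorphSourceTarget).isEmbedding.secondCountableTopology
    exact TopologicalSpace.secondCountableTopology_of_countable_cover
      (fun i : s => (e i).open_source) (by
        rw [← hsu]
        ext x
        simp only [mem_iUnion, Subtype.exists, exists_prop])
  infer_instance

omit [T2Space M] in
theorem chart_of_cover (n : ℕ) [ChartedSpace (EuclideanSpace ℝ (Fin n)) M] (x : X) :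
    ∃ β : (Fin n → ℝ) → X, IsOpenEmbedding β ∧ β 0 = x := by
  obtain ⟨e, hx, -⟩ := hp.isCoveringMap.isLocalHomeomorph x
  let c := chartAt (EuclideanSpace ℝ (Fin n)) (e x)
  let f : OpenPartialHomeomorph X (EuclideanSpace ℝ (Fin n)) := e.trans c
  have hxf : x ∈ f.source := by
    rw [OpenPartialHomeomorph.trans_source]
    exact ⟨hx, mem_chart_source _ (e x)⟩
  obtain ⟨r, hr, hball⟩ := Metric.isOpen_iff.1 f.open_target (f x) (f.map_source hxf)
  let u : OpenPartialHomeomorph (EuclideanSpace ℝ (Fin n)) (EuclideanSpace ℝ (Fin n)) :=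
    OpenPartialHomeomorph.univBall (f x) r
  let g : OpenPartialHomeomorph (EuclideanSpace ℝ (Fin n)) X := u.trans f.symm
  have hg : g.source = univ := by
    rw [OpenPartialHomeomorph.trans_source]
    refine eq_univ_of_forall fun y => ⟨?_, ?_⟩
    · rw [OpenPartialHomeomorph.univBall_source]; trivial
    · refine hball ?_
      rw [← OpenPartialHomeomorph.univBall_target (f x) hr]
      exact u.map_source (by rw [OpenPartialHomeomorph.univBall_source]; trivial)
  let L : (Fin n → ℝ) ≃ₜ EuclideanSpace ℝ (Fin n) :=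
    (EuclideanSpace.equiv (Fin n) ℝ).symm.toHomeomorph
  refine ⟨fun y => g (L y), (g.isOpenEmbedding hg).comp L.isOpenEmbedding, ?_⟩
  have h0 : L 0 = 0 := map_zero (EuclideanSpace.equiv (Fin n) ℝ).symm
  change f.symm (u (L 0)) = x
  rw [h0]
  have h1 : u 0 = f x := OpenPartialHomeomorph.univBall_apply_zero _ _
  rw [h1, f.left_inv hxf]

theorem coAct_of_cover [CompactSpace M] : CoAct Γ X := by
  obtain ⟨hX, hB⟩ := exists_cocomp hp
  have hcs : ContinuousConstSMul Γ X := hp.toContinuousConstSMul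
  refine ⟨fun g => continuous_const_smul g, fun g x hx => ?_, hB, fun C D hC hD => ?_⟩
  · obtain ⟨U, hU, hU'⟩ := hp.disjoint x
    exact hU' g ⟨x, ⟨x, mem_of_mem_nhds hU, hx⟩, mem_of_mem_nhds hU⟩
  · refine (finite_meet hp hC hD).subset ?_
    rintro g ⟨y, hy, hgy⟩
    exact ⟨g • y, ⟨y, hy, rfl⟩, hgy⟩

end Cover

/-! Assembly. -/

theorem pkg_of_charts {n : ℕ} (hn : 0 < n) {X : Type*} [MetricSpace X]
    (hch : ∀ x : X, ∃ β : (Fin n → ℝ) → X, IsOpenEmbedding β ∧ β 0 = x) (N : Set X)
    (hN : IsCompact N) : PkgS n N := by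
  choose β hβ hβ0 using hch
  have hnb : ∀ x, β x '' Q n 1 ∈ 𝓝 x := fun x => by
    have h1 : ball (0 : Fin n → ℝ) 1 ⊆ Q n 1 := ball_subset_closedBall
    refine Filter.mem_of_superset ?_ (image_mono h1)
    refine ((hβ x).isOpenMap _ isOpen_ball).mem_nhds ?_
    exact ⟨0, mem_ball_self one_pos, hβ0 x⟩
  obtain ⟨t, -, ht⟩ := hN.elim_nhds_subcover (fun x => β x '' Q n 1) fun x _ => hnb x
  let e := t.equivFin
  let b : Fin t.card → (Fin n → ℝ) → X := fun a => β (e.symm a)
  have hb : ∀ a, IsOpenEmbedding (b a) := fun a => hβ _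
  have hL : ∀ a, LD1S (b a) := fun a => ld1S hn (hb a)
  have hI : ∀ a c, InvS (b a) (b c) := fun a c => invS hn (hb a) (hb c) (hL c)
  refine pkgS hn b hb (fundS hn b hb hL hI) hI
    (fun a q h1 h2 => lcS hn (hb a) q h1 h2) N hN ?_
  intro x hx
  obtain ⟨y, hy, hxy⟩ := mem_iUnion₂.1 (ht hx)
  refine mem_iUnion.2 ⟨e ⟨y, hy⟩, ?_⟩
  simpa [b] using hxy

theorem push_of_charts {n : ℕ} {X : Type*} [MetricSpace X] [LocallyCompactSpace X]
    [ContractibleSpace X]
    (hch : ∀ x : X, ∃ β : (Fin n → ℝ) → X, IsOpenEmbedding β ∧ β 0 = x) (i : ℕ) (hi : 1 ≤ i)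
    (hin : i < n) : PushS X i :=
  pushS i hi (fillS _ X) (relS (pkg_of_charts (by omega) hch) i hi hin)

section Coarse

variable {M X Γ : Type*} [TopologicalSpace M] [T2Space M] [CompactSpace M] [TopologicalSpace X]
  [ContractibleSpace X] [Group Γ] [MulAction Γ X] {p : X → M} (hp : IsQuotientCoveringMap p Γ)
include hp

/-- A contractible cover of a compact metrizable space: the deck group is coarsely acyclic. -/
theorem cfill_of_cover [SecondCountableTopology M] (i : ℕ) : CFillS (ZMod 2) Γ i := by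
  have : LocallyCompactSpace X := locallyCompact_of_cover hp
  have hm : TopologicalSpace.MetrizableSpace X := metrizable_of_cover hp
  letI : MetricSpace X := TopologicalSpace.metrizableSpaceMetric X
  have hact : CoAct Γ X := coAct_of_cover hp
  have hF : FillS (ZMod 2) X := fillS _ X
  exact cfillS _ hact hF i (psiS _ hact hF i)

/-- The deck group of a closed aspherical `n`-manifold is coarsely acyclic at infinity in
degrees below `n`. -/
theorem cpush_of_cover (n : ℕ) [ChartedSpace (EuclideanSpace ℝ (Fin n)) M] (i : ℕ) (hi : 1 ≤ i)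
    (hin : i < n) : CPushS Γ i := by
  have hM : SecondCountableTopology M :=
    ChartedSpace.secondCountable_of_sigmaCompact (EuclideanSpace ℝ (Fin n)) M
  have : LocallyCompactSpace X := locallyCompact_of_cover hp
  have hm : TopologicalSpace.MetrizableSpace X := metrizable_of_cover hp
  letI : MetricSpace X := TopologicalSpace.metrizableSpaceMetric X
  have hact : CoAct Γ X := coAct_of_cover hp
  have hF : FillS (ZMod 2) X := fillS _ X
  exact cpushS hact i (psiS _ hact hF i) (push_of_charts (chart_of_cover hp n) i hi hin)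

end Coarse

end Vale.Agent.P239.H260
end

section

/-! The first L2-Betti number from the group theorem. -/

namespace Vale.Agent.P239.H260

open Vale.Agent.P239 Vale.Agent.P239.F
open scoped Pointwise

open Classical in
/-- The group theorem in terms of L2-Betti numbers: torsion free, one-ended groups, with exactness
of closed 1-cochains modulo 2 at all large scales and vanishing second cohomology with finite
supports, have vanishing first L2-Betti number. -/
theorem betti_one_group {X Γ : Type*} [TopologicalSpace X] [ContractibleSpace X] [Group Γ]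
    [MulAction Γ X] [ContinuousConstSMul Γ X] (hfree : ∀ (g : Γ) (x : X), g • x = x → g = 1)
    (htf : ∀ g : Γ, g ≠ 1 → ∀ n : ℕ, n ≠ 0 → g ^ n ≠ 1)
    (hH1 : ∃ S : Finset Γ, Subgroup.closure (S : Set Γ) = ⊤ ∧ (∀ s ∈ S, s⁻¹ ∈ S) ∧ 1 ∈ S ∧
      ∃ n₀ : ℕ, 1 ≤ n₀ ∧ ∀ n, n₀ ≤ n → H1Ex (S ^ n))
    (hOE : ∀ S : Finset Γ, Subgroup.closure (S : Set Γ) = ⊤ → (∀ s ∈ S, s⁻¹ ∈ S) → OneEnded S)
    (hfill : ∀ S : Finset Γ, ∃ T₀ : Finset Γ, ∀ T : Finset Γ, T₀ ⊆ T → (∀ s ∈ T, s⁻¹ ∈ T) →
      H2Fill S T) :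
    bettiTwo Γ X 1 = 0 := by
  rw [bettiTwo_succ _ _ 0]
  refine (l2Betti_one_eq (G := Γ) (X := X) hfree).trans ?_
  by_cases hfol : Foelner Γ
  · exact hfol.vnDim_K_eq_zero
  have hinf : Infinite Γ := by
    by_contra hfin
    rw [not_infinite_iff_finite] at hfin
    have : Fintype Γ := Fintype.ofFinite Γ
    refine hfol fun T n => ⟨Finset.univ, Finset.univ_nonempty, fun s _ => ?_⟩
    simp
  obtain ⟨S₀, hS₀, hsym₀, h1₀, n₀, hn₀, hex⟩ := hH1
  have hsymn : ∀ n : ℕ, ∀ s ∈ S₀ ^ n, s⁻¹ ∈ S₀ ^ n := by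
    intro n
    induction n with
    | zero => intro s hs; rw [pow_zero, Finset.mem_one] at hs; subst hs; simp
    | succ n ih =>
      intro s hs
      rw [pow_succ] at hs
      obtain ⟨a, ha, b, hb, rfl⟩ := Finset.mem_mul.1 hs
      rw [mul_inv_rev, pow_succ']
      exact Finset.mul_mem_mul (hsym₀ b hb) (ih a ha)
  have hsub : ∀ n, 1 ≤ n → S₀ ⊆ S₀ ^ n := fun n hn => by
    have := Finset.pow_subset_pow_right h1₀ hn
    rwa [pow_one] at this
  have hclos : ∀ n, 1 ≤ n → Subgroup.closure ((S₀ ^ n : Finset Γ) : Set Γ) = ⊤ := fun n hn => by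
    rw [eq_top_iff, ← hS₀]
    exact Subgroup.closure_mono (by exact_mod_cast hsub n hn)
  set S : Finset Γ := S₀ ^ n₀ with hSdef
  have hS : Subgroup.closure (S : Set Γ) = ⊤ := hclos n₀ hn₀
  obtain ⟨T₀, hT₀⟩ := hfill S
  obtain ⟨n₁, hn₁⟩ := exists_subset_pow hS₀ hsym₀ h1₀ T₀
  set T : Finset Γ := S₀ ^ (max n₀ n₁) with hTdef
  obtain ⟨C, hC, hgap⟩ := exists_gap hfol S hS
  have hHyp : Hyp S T :=
    { gen := hS
      symS := hsymn n₀
      symT := hsymn _
      oneS := hsub n₀ hn₀ h1₀
      sub := Finset.pow_subset_pow_right h1₀ (le_max_left _ _)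
      inf := hinf
      oneEnd := hOE S hS (hsymn n₀)
      exS := hex n₀ le_rfl
      exT := hex _ (le_max_left _ _)
      fill := hT₀ T (hn₁ _ (le_max_right _ _)) (hsymn _)
      tf := htf
      gap := ⟨C, hC, hgap⟩ }
  refine vnDim_K_eq_zero_of_harm S hS (hsymn n₀) fun f hf hh => ?_
  by_contra hne
  push Not at hne
  exact hgroup S T hHyp ⟨⟨f, mem_Dir_iff.2 hf⟩, hh, hne⟩

/-- Compact Hausdorff spaces with a contractible regular covering. -/
theorem betti_one_of_cover {M X Γ : Type*} [TopologicalSpace M] [T2Space M] [CompactSpace M]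
    [TopologicalSpace X] [ContractibleSpace X] [Group Γ] [MulAction Γ X] [ContinuousConstSMul Γ X]
    {p : X → M} (hp : IsQuotientCoveringMap p Γ)
    (hOE : ∀ S : Finset Γ, Subgroup.closure (S : Set Γ) = ⊤ → (∀ s ∈ S, s⁻¹ ∈ S) → OneEnded S)
    (hfill : ∀ S : Finset Γ, ∃ T₀ : Finset Γ, ∀ T : Finset Γ, T₀ ⊆ T → (∀ s ∈ T, s⁻¹ ∈ T) →
      H2Fill S T) :
    bettiTwo Γ X 1 = 0 := by
  have hfree : ∀ (g : Γ) (x : X), g • x = x → g = 1 := fun g x hx => by
    obtain ⟨U, hU, hU'⟩ := hp.disjoint x
    exact hU' g ⟨x, ⟨x, mem_of_mem_nhds hU, hx⟩, mem_of_mem_nhds hU⟩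
  have : LocallyCompactSpace X := locallyCompact_of_cover hp
  exact betti_one_group hfree (TF.torsion_free hp) (exists_h1Ex hp) hOE hfill

/-- The first L2-Betti number of a closed aspherical `n`-manifold vanishes for all `n ≥ 3`. -/
theorem singer_n {n : ℕ} (hn : 3 ≤ n) {M X Γ : Type*} [TopologicalSpace M] [T2Space M]
    [CompactSpace M] [ChartedSpace (EuclideanSpace ℝ (Fin n)) M] [TopologicalSpace X]
    [ContractibleSpace X] [Group Γ] [MulAction Γ X] [ContinuousConstSMul Γ X]
    (p : X → M) (hp : IsQuotientCoveringMap p Γ) : bettiTwo Γ X 1 = 0 := by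
  have hM : SecondCountableTopology M :=
    ChartedSpace.secondCountable_of_sigmaCompact (EuclideanSpace ℝ (Fin n)) M
  have h1 : Vale.Agent.P239.M.CPushS Γ 1 := cpush_of_cover hp n 1 le_rfl (by omega)
  have h2 : Vale.Agent.P239.M.CPushS Γ 2 := cpush_of_cover hp n 2 (by omega) (by omega)
  exact betti_one_of_cover hp
    (fun S hS hsym => Vale.Agent.P239.M.oneEnded_of_cpush h1 S hS hsym)
    (fun S => Vale.Agent.P239.M.h2fill_of_cpush h2 (cfill_of_cover hp 2) (cfill_of_cover hp 3) S)

end Vale.Agent.P239.H260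
end
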